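import Vale.Agent.Results.P321.Window
import Vale.Agent.P321D.Fin

/-!
Worst-case trace reconstruction: the lower and upper bounds for the number of traces, together
with one deterministic algorithm, running in time polynomial in the length of its input, that
reconstructs every string from quasi-polynomially many traces for every rational deletion
probability, and from polynomially many traces when the deletion probability is at most `n ^ (-δ)`.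
-/

namespace Vale.Agent.Results.P321.AADecoder

open Vale.Agent.P321 Vale.Agent.P321Z Vale.Agent.P321W Vale.Agent.P321D Filter Topology
open scoped unitInterval

theorem result :
    (∃ c C : ℝ, 0 < c ∧ ∀ (n : ℕ) (q : I), C ≤ (q : ℝ) ^ 3 * Real.log n →
      minTV q n ≤ ENNReal.ofReal (Real.exp
        (-(c * Real.log n * ((q : ℝ) ^ 3 * Real.log n) ^ (1 / 46 : ℝ)))) ∧
      ∀ s : ℝ, Real.exp (-(c * Real.log n * ((q : ℝ) ^ 3 * Real.log n) ^ (1 / 46 : ℝ))) ≤ s →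
        (⌈Real.exp (c * Real.log n * ((q : ℝ) ^ 3 * Real.log n) ^ (1 / 46 : ℝ))⌉₊ : ℕ∞)
          ≤ Ts q s n) ∧
    (∀ q : ℕ → I, Tendsto (fun n : ℕ => (q n : ℝ) ^ 3 * Real.log n) atTop atTop →
      ∀ A s : ℝ, 0 < s → ∀ᶠ n : ℕ in atTop,
        minTV (q n) n ≤ ENNReal.ofReal
          ((n : ℝ) ^ (-(A * Real.log ((q n : ℝ) ^ 3 * Real.log n)))) ∧
        (⌈(n : ℝ) ^ (A * Real.log ((q n : ℝ) ^ 3 * Real.log n))⌉₊ : ℕ∞) ≤ Ts (q n) s n) ∧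
    (∀ q : I, 0 < (q : ℝ) → (q : ℝ) < 1 → ∃ c : ℝ, 0 < c ∧ ∀ a : ℝ, 2 < a → ∀ᶠ n : ℕ in atTop,
      (⌈Real.exp (c * (Real.log n) ^ (1 + 1 / 46 : ℝ))⌉₊ : ℕ∞) ≤ T q n ∧
      T q n ≤ (⌊Real.exp ((Real.log n) ^ a)⌋₊ : ℕ∞)) ∧
    (∀ (q : I) (n : ℕ), T q n = Ts q (2 / 3) n) ∧
    (∀ a : ℝ, 2 < a → ∃ C : ℝ, 0 < C ∧ ∀ q : I, (q : ℝ) < 1 → ∀ n : ℕ, 2 ≤ n →
      ∀ s : ℝ, s ≤ 1 - Real.exp (-n) →
        Ts q s n ≤ (⌊Real.exp (C / (1 - q) * (Real.log n) ^ a)⌋₊ : ℕ∞)) ∧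
    (∀ a : ℝ, 2 < a → ∃ C : ℝ, 0 < C ∧ ∀ q : I, 0 < (q : ℝ) → (q : ℝ) ≤ 1 / 2 →
      ∀ n : ℕ, 2 ≤ n → ∀ s : ℝ, s ≤ 1 - Real.exp (-n) →
        Ts q s n ≤ (⌊Real.exp (C * Real.log n *
          (1 + Real.log n / Real.log (1 / (q : ℝ))) ^ (a - 1))⌋₊ : ℕ∞)) ∧
    (∀ δ : ℝ, 0 < δ → ∃ C : ℝ, 0 < C ∧ ∀ n : ℕ, 2 ≤ n → ∀ q : I, (q : ℝ) ≤ (n : ℝ) ^ (-δ) →
      ∀ s : ℝ, s ≤ 1 - Real.exp (-n) → Ts q s n ≤ (⌊(n : ℝ) ^ C⌋₊ : ℕ∞)) ∧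
    ∃ D : List Bool → List Bool, PolyTime D ∧
      (∃ C : ℝ, 0 < C ∧ ∀ (a b n m : ℕ) (q : I), 0 < a → a < b → (q : ℝ) = (a : ℝ) / b → 2 ≤ n →
        Real.exp (C * (Real.log n) ^ 84 / (1 - q)) ≤ m → Decodes D q a b n m) ∧
      ∀ δ : ℝ, 0 < δ → ∃ C : ℝ, 0 < C ∧ ∀ (a b n m : ℕ) (q : I), 0 < a → a < b →
        (q : ℝ) = (a : ℝ) / b → 2 ≤ n → (q : ℝ) ≤ (n : ℝ) ^ (-δ) → (n : ℝ) ^ C ≤ m →
        Decodes D q a b n m := by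
  obtain ⟨h1, h2, h3, h4, h5, h6, h7⟩ := Window.result
  exact ⟨h1, h2, h3, h4, h5, h6, h7, dec⟩

end Vale.Agent.Results.P321.AADecoder
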